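import Vale.Agent.Lib.P247.Main

open Vale.Agent.Lib.P247

/-- **Donaldson's hypersymplectic deformation conjecture for a symmetry-free class on `T⁴`.**
Let `w = (w₀, w₁, w₂)` be a normalized hypersymplectic structure on `T⁴ = ℝ⁴/ℤ⁴` and let `c_i` be the
constant-coefficient representative of the class `[w_i]`.  If `w_i ∧ c_j = 0` pointwise for all
`i < j`, then `w` admits a cohomologous deformation ending at a hyperkaehler triple. -/
theorem Vale.Agent.Results.P247.Triangular.result
    (w : Fin 3 → R4 → Alt 2) (hw : IsHypersymplectic w) (hn : IsNormalized w)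
    (c : Fin 3 → Alt 2) (hcoh : ∀ i, Cohomologous (fun _ => c i) (w i))
    (htri : ∀ i j, i < j → ∀ x, wedge (w i x) (c j) = 0) :
    ∃ W : ℝ → Fin 3 → R4 → Alt 2, IsCohomologousDeformation w W ∧ IsHyperkahlerTriple (W 1) :=
  ⟨stagePath w c, deformation_of_triangular hw one_pos (const_of_normalized hw hn hcoh) hcoh htri⟩
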