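import Vale.Agent.Results.P247.ConeCriterion
import Vale.Agent.Results.P247.Triangular

open Vale.Agent.Lib.P247

/-- **Two symmetry-free classes on `T⁴` for which Donaldson's deformation conjecture holds.**
Let `w` be a normalized hypersymplectic structure on `T⁴ = ℝ⁴/ℤ⁴` and let `c_i` be the
constant-coefficient representative of `[w_i]`.
(1) If the symmetric matrix `(w_i ∧ c_j + w_j ∧ c_i)` is positive semidefinite at every point, then
the straight-line path `(1 - t) w + t c` is a cohomologous deformation of `w` ending at the
hyperkaehler triple `c`.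
(2) If `w_i ∧ c_j = 0` pointwise for all `i < j`, then `w` admits a cohomologous deformation ending
at a hyperkaehler triple. -/
theorem Vale.Agent.Results.P247.A_Combined.result
    (w : Fin 3 → R4 → Alt 2) (hw : IsHypersymplectic w) (hn : IsNormalized w)
    (c : Fin 3 → Alt 2) (hcoh : ∀ i, Cohomologous (fun _ => c i) (w i)) :
    ((∀ x, (Matrix.of fun i j => wedge (w i x) (c j) + wedge (w j x) (c i)).PosSemidef) →
      IsCohomologousDeformation w (fun t i x => (1 - t) • w i x + t • c i) ∧
        IsHyperkahlerTriple (fun i _ => c i)) ∧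
    ((∀ i j, i < j → ∀ x, wedge (w i x) (c j) = 0) →
      ∃ W : ℝ → Fin 3 → R4 → Alt 2, IsCohomologousDeformation w W ∧ IsHyperkahlerTriple (W 1)) :=
  ⟨fun hcone => Vale.Agent.Results.P247.ConeCriterion.result w hw hn c hcoh hcone,
    fun htri => Vale.Agent.Results.P247.Triangular.result w hw hn c hcoh htri⟩
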