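import Vale.Agent.Lib.P247.Main

open Vale.Agent.Lib.P247

/-- **Cone criterion for the straight-line path on `T⁴`.**
Let `w` be a normalized hypersymplectic structure on `T⁴ = ℝ⁴/ℤ⁴` and let `c_i` be the
constant-coefficient representative of `[w_i]`.  If the symmetric matrix
`(w_i ∧ c_j + w_j ∧ c_i)` is positive semidefinite at every point, then the straight-line path
`(1 - t) w + t c` is a cohomologous deformation of `w` ending at the hyperkaehler triple `c`. -/
theorem Vale.Agent.Results.P247.ConeCriterion.result
    (w : Fin 3 → R4 → Alt 2) (hw : IsHypersymplectic w) (hn : IsNormalized w)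
    (c : Fin 3 → Alt 2) (hcoh : ∀ i, Cohomologous (fun _ => c i) (w i))
    (hcone : ∀ x, (Matrix.of fun i j => wedge (w i x) (c j) + wedge (w j x) (c i)).PosSemidef) :
    IsCohomologousDeformation w (fun t i x => (1 - t) • w i x + t • c i) ∧
      IsHyperkahlerTriple (fun i _ => c i) := by
  have hc := const_of_normalized hw hn hcoh
  exact ⟨(deformation_of_cone hw one_pos hc hcoh hcone).1, const_hyperkahler one_pos hc⟩
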